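import Mathlib

/-
Two configurations that cannot be the out-neighbourhood of a minimum vertex (P038).
-/

namespace Vale.Agent.P038

open Finset

variable {V : Type*} [DecidableEq V] (A : V → V → Prop) [DecidableRel A]

/-- Four vertices: internal outdegrees in `{1, 2}`, at least three in sum along each arc. -/
theorem no_four (hA : ∀ u v, A u v → ¬ A v u) (T : Finset V) (hT : T.card = 4)
    (h1 : ∀ x ∈ T, 1 ≤ (T.filter (A x ·)).card) (h2 : ∀ x ∈ T, (T.filter (A x ·)).card ≤ 2)
    (h3 : ∀ x ∈ T, ∀ y ∈ T, A x y →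
      3 ≤ (T.filter (A x ·)).card + (T.filter (A y ·)).card) : False := by
  have hirr : ∀ x, ¬ A x x := fun x h => hA x x h h
  -- below an arc x -> y with d y = 2 the two out-neighbours of y are the rest of T
  have rest : ∀ x ∈ T, ∀ y ∈ T, A x y → (T.filter (A y ·)).card = 2 →
      T.filter (A y ·) = (T.erase x).erase y := by
    intro x hx y hy hxy hy2
    refine eq_of_subset_of_card_le ?_ ?_
    · intro z hz
      rw [mem_filter] at hz
      exact mem_erase.2 ⟨fun e => hirr y (e ▸ hz.2),
        mem_erase.2 ⟨fun e => hA _ _ hxy (e ▸ hz.2), hz.1⟩⟩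
    · rw [card_erase_of_mem (mem_erase.2 ⟨fun e => hirr x (by simpa [e] using hxy), hy⟩),
        card_erase_of_mem hx]
      omega
  by_cases hall : ∀ x ∈ T, (T.filter (A x ·)).card = 2
  · obtain ⟨u, hu⟩ : T.Nonempty := card_pos.1 (by omega)
    obtain ⟨a, b, hab, hD⟩ := card_eq_two.1 (hall u hu)
    have ha : a ∈ T ∧ A u a := mem_filter.1 (by rw [hD]; simp : a ∈ T.filter (A u ·))
    have hb : b ∈ T ∧ A u b := mem_filter.1 (by rw [hD]; simp : b ∈ T.filter (A u ·))
    have h : ∀ y z, y ∈ T → A u y → z ∈ T → A u z → z ≠ y → A y z := by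
      intro y z hy huy hz huz hzy
      have hmem : z ∈ (T.erase u).erase y :=
        mem_erase.2 ⟨hzy, mem_erase.2 ⟨fun e => hirr u (e ▸ huz), hz⟩⟩
      rw [← rest u hu y hy huy (hall y hy)] at hmem
      exact (mem_filter.1 hmem).2
    exact hA _ _ (h a b ha.1 ha.2 hb.1 hb.2 hab.symm) (h b a hb.1 hb.2 ha.1 ha.2 hab)
  · push Not at hall
    obtain ⟨x, hx, hx2⟩ := hall
    have hx1 := h1 x hx
    have hx2' := h2 x hx
    obtain ⟨y, hy⟩ : (T.filter (A x ·)).Nonempty := card_pos.1 (by omega)
    obtain ⟨hyT, hxy⟩ := mem_filter.1 hy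
    have hy2 : (T.filter (A y ·)).card = 2 := by
      have := h3 x hx y hyT hxy
      have := h2 y hyT
      omega
    have hR := rest x hx y hyT hxy hy2
    obtain ⟨p, q, hpq, hD⟩ := card_eq_two.1 hy2
    have key : ∀ r s, r ≠ s → T.filter (A y ·) = {r, s} → A r s := by
      intro r s hrs hrsD
      obtain ⟨hrT, hyr⟩ := mem_filter.1 (by rw [hrsD]; simp : r ∈ T.filter (A y ·))
      by_contra hn
      have hsub : T.filter (A r ·) ⊆ {x} := by
        intro z hz
        rw [mem_filter] at hz
        rw [mem_singleton]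
        by_contra hzx
        have hzy : z ≠ y := fun e => hA _ _ hyr (e ▸ hz.2)
        have hmem : z ∈ (T.erase x).erase y := mem_erase.2 ⟨hzy, mem_erase.2 ⟨hzx, hz.1⟩⟩
        rw [← hR, hrsD, mem_insert, mem_singleton] at hmem
        rcases hmem with e | e
        · exact hirr r (e ▸ hz.2)
        · exact hn (e ▸ hz.2)
      obtain ⟨z, hz⟩ : (T.filter (A r ·)).Nonempty := card_pos.1 (h1 r hrT)
      have hzx : z = x := mem_singleton.1 (hsub hz)
      have hcard := card_le_card hsub
      rw [card_singleton] at hcard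
      have := h3 r hrT z (mem_filter.1 hz).1 (mem_filter.1 hz).2
      rw [hzx] at this
      omega
    exact hA _ _ (key p q hpq hD) (key q p hpq.symm (by rw [hD, pair_comm]))

/-- Five vertices: every internal outdegree is two and there is no transitive triangle. -/
theorem no_five (hA : ∀ u v, A u v → ¬ A v u) (T : Finset V) (hT : T.card = 5)
    (hall : ∀ x ∈ T, (T.filter (A x ·)).card = 2)
    (hno : ∀ x ∈ T, ∀ y ∈ T, ∀ z ∈ T, A x y → A x z → ¬ A y z) : False := by
  have hirr : ∀ x, ¬ A x x := fun x h => hA x x h h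
  obtain ⟨u, hu⟩ : T.Nonempty := card_pos.1 (by omega)
  obtain ⟨a, b, hab, hD⟩ := card_eq_two.1 (hall u hu)
  obtain ⟨ha, hua⟩ := mem_filter.1 (by rw [hD]; simp : a ∈ T.filter (A u ·))
  obtain ⟨hb, hub⟩ := mem_filter.1 (by rw [hD]; simp : b ∈ T.filter (A u ·))
  have hsub : ({u, a, b} : Finset V) ⊆ T := by simp [insert_subset_iff, hu, ha, hb]
  have hua' : u ≠ a := fun e => hirr u (by simpa [← e] using hua)
  have hub' : u ≠ b := fun e => hirr u (by simpa [← e] using hub)
  have hR : (T \ {u, a, b}).card = 2 := by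
    rw [card_sdiff_of_subset hsub]
    simp [hua', hub', hab, hT]
  have hout : ∀ y ∈ T, A u y → T.filter (A y ·) = T \ {u, a, b} := by
    intro y hy huy
    refine eq_of_subset_of_card_le ?_ (by rw [hR, hall y hy])
    intro z hz
    rw [mem_filter] at hz
    simp only [mem_sdiff, mem_insert, mem_singleton, not_or]
    exact ⟨hz.1, fun e => hA _ _ huy (e ▸ hz.2),
      fun e => hno u hu y hy a ha huy hua (e ▸ hz.2),
      fun e => hno u hu y hy b hb huy hub (e ▸ hz.2)⟩
  obtain ⟨c, d, hcd, hRcd⟩ := card_eq_two.1 hR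
  have key : ∀ r s, r ≠ s → T \ {u, a, b} = {r, s} → A r s := by
    intro r s hrs hrsR
    have hr : r ∈ T \ {u, a, b} := by rw [hrsR]; simp
    obtain ⟨-, har⟩ := mem_filter.1 ((hout a ha hua).symm ▸ hr : r ∈ T.filter (A a ·))
    obtain ⟨-, hbr⟩ := mem_filter.1 ((hout b hb hub).symm ▸ hr : r ∈ T.filter (A b ·))
    have hrT := (mem_sdiff.1 hr).1
    by_contra hn
    have hsub : T.filter (A r ·) ⊆ {u} := by
      intro z hz
      rw [mem_filter] at hz
      rw [mem_singleton]
      by_contra hzu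
      have hmem : z ∈ T \ {u, a, b} := by
        simp only [mem_sdiff, mem_insert, mem_singleton, not_or]
        exact ⟨hz.1, hzu, fun e => hA _ _ har (e ▸ hz.2), fun e => hA _ _ hbr (e ▸ hz.2)⟩
      rw [hrsR, mem_insert, mem_singleton] at hmem
      rcases hmem with e | e
      · exact hirr r (e ▸ hz.2)
      · exact hn (e ▸ hz.2)
    have hcard := card_le_card hsub
    rw [card_singleton, hall r hrT] at hcard
    omega
  exact hA _ _ (key c d hcd hRcd) (key d c hcd.symm (by rw [hRcd, pair_comm]))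

end Vale.Agent.P038
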